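import Crest.Agent.X212.Tr6.Bas

/-!
# Row 212, DEC-TR (helper6): moving the right end of the cut
-/

set_option autoImplicit false
set_option linter.unusedSectionVars false
noncomputable section
open scoped Manifold ContDiff Topology InnerProductSpace
open MeasureTheory Set Function Filter Real

namespace Crest.Agent.X212.Tr6
open An Map77 Sob92 Nd18 Cyf70 Dec35 Rsp69
open Neck67 (Bd up dn up_zero up_one dn_zero dn_one)

section time
variable {th : ℝ → ℝ} {L p q q' c t η : ℝ}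

theorem sm_chi (p q : ℝ) : Neck67.Sm (chi p q) := (Neck67.sm_up le_rfl p).mul (Neck67.sm_dn le_rfl q)

theorem chi_lo (h : t ≤ p) : chi p q t = 0 := by rw [chi, up_zero one_pos h, zero_mul]

theorem chi_hi (h : q ≤ t) : chi p q t = 0 := by rw [chi, dn_zero one_pos h, mul_zero]

theorem chi_eq (hq : q ≤ q') (h : t ≤ q - 1) : chi p q' t = chi p q t := by
  rw [chi, chi, dn_one one_pos h, dn_one one_pos (by linarith)]

theorem ret_zero (hL : 1 ≤ L) (h : t ∉ Icc (p - L) (q + L)) : ret L p q t = 0 := by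
  rcases not_and_or.1 h with h | h
  · rw [ret, up_zero (by linarith) (not_le.1 h).le, zero_mul]
  · rw [ret, dn_zero (by linarith) (not_le.1 h).le, mul_zero]

variable (h : ContDiff ℝ ∞ th)
include h

theorem cd_int (p q : ℝ) : ContDiff ℝ ∞ fun s => chi p q s * deriv th s :=
  (sm_chi p q).cd.mul (Neck67.cd_deriv h)

theorem hd_vth (p q t : ℝ) : HasDerivAt (vth th p q) (chi p q t * deriv th t) t :=
  ((cd_int h p q).continuous.integral_hasStrictDerivAt p t).hasDerivAt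

theorem cd_vth (p q : ℝ) : ContDiff ℝ ∞ (vth th p q) :=
  contDiff_infty_iff_deriv.2 ⟨fun t => (hd_vth h p q t).differentiableAt,
    (funext fun t => (hd_vth h p q t).deriv : deriv _ = _) ▸ cd_int h p q⟩

theorem vth_hi (ht : q ≤ t) : vth th p q t = vth th p q q := by
  have i := (cd_int h p q).continuous.intervalIntegrable (μ := volume)
  rw [vth, ← intervalIntegral.integral_add_adjacent_intervals (i p q) (i q t),
    intervalIntegral.integral_congr (a := q) (g := fun _ => 0) fun s hs => by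
      rw [uIcc_of_le ht] at hs; simp [chi_hi hs.1]]
  simp [vth]

theorem vth_bd (b : ∀ t, |deriv th t| ≤ η) (hq : q ≤ q') (hq' : q' ≤ q + 2) (t : ℝ) :
    |vth th p q' t - vth th p q t| ≤ 3 * η := by
  have i := fun q => (cd_int h p q).continuous.intervalIntegrable (μ := volume) p t
  have e0 := (abs_nonneg _).trans (b 0)
  have j : Integrable ((Icc (q - 1) q').indicator fun _ => η) :=
    (integrableOn_const (by simp)).integrable_indicator measurableSet_Icc
  rw [vth, vth, ← intervalIntegral.integral_sub (i q') (i q), ← Real.norm_eq_abs]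
  refine intervalIntegral.norm_integral_le_integral_norm_uIoc.trans ((integral_mono_of_nonneg
    (.of_forall fun _ => by positivity) j.integrableOn (.of_forall fun s => ?_)).trans
    ((setIntegral_le_integral j (.of_forall (indicator_nonneg fun _ _ => e0))).trans ?_))
  · by_cases hs : s ∈ Icc (q - 1) q'
    · have a : ∀ q, 0 ≤ chi p q s := fun q =>
        mul_nonneg (Neck67.up_mem p 1 s).1 (Neck67.dn_mem q 1 s).1
      have a' : ∀ q, chi p q s ≤ 1 := fun q => mul_le_one₀ (Neck67.up_mem p 1 s).2 (Neck67.dn_mem q 1 s).1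
        (Neck67.dn_mem q 1 s).2
      simp only [indicator_of_mem hs, ← sub_mul, norm_mul, Real.norm_eq_abs]
      exact (mul_le_of_le_one_left (abs_nonneg _) (abs_le.2 ⟨by linarith [a q', a' q],
        by linarith [a q, a' q']⟩)).trans (b s)
    · rcases not_and_or.1 hs with k | k
      · simp [indicator_of_notMem hs, chi_eq hq (not_le.1 k).le]
      · simp [indicator_of_notMem hs, chi_hi (not_le.1 k).le, chi_hi (hq.trans (not_le.1 k).le)]
  · rw [integral_indicator measurableSet_Icc, setIntegral_const, Real.volume_real_Icc_of_le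
      (by linarith), smul_eq_mul]
    exact mul_le_mul_of_nonneg_right (by linarith) e0

omit h in
theorem vth_lo (ht : t ≤ p) : vth th p q t = 0 := by
  rw [vth, intervalIntegral.integral_congr (g := fun _ => 0) fun s hs => by
    rw [uIcc_of_ge ht] at hs; simp [chi_lo hs.2]]
  simp

omit h in
theorem vth_eq (hq : q ≤ q') (ht : t ≤ q - 1) : vth th p q' t = vth th p q t :=
  intervalIntegral.integral_congr fun s hs => by
    rcases le_max_iff.1 hs.2 with k | k
    · simp [chi_lo k]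
    · simp [chi_eq hq (k.trans ht)]

theorem Th_eq (hL : 1 ≤ L) (hp : p ≤ q) (t : ℝ) : Th th L p q c t =
    vth th p q t + (c * up (p - L) L t - (c + vth th p q q) * (1 - dn (q + L) L t)) := by
  have l : 0 < L := by linarith
  rw [Th, ret]
  rcases le_total t p with a | a
  · rw [vth_lo a, dn_one l (by linarith)]; ring
  rw [up_one l (by linarith)]
  rcases le_total t q with b | b
  · rw [dn_one l (by linarith)]; ring
  · rw [vth_hi h b]; ring

end time

variable {E3 : Type} [NormedAddCommGroup E3] [NormedSpace ℝ E3] [FiniteDimensional ℝ E3]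
  [MeasurableSpace E3] [BorelSpace E3]
  {H3 : Type} [TopologicalSpace H3] {I3 : ModelWithCorners ℝ E3 H3} [I3.Boundaryless]
  {Y : Type} [TopologicalSpace Y] [ChartedSpace H3 Y] [IsManifold I3 ∞ Y] [T2Space Y]
  [MeasurableSpace Y] [BorelSpace Y] [SecondCountableTopology Y] [CompactSpace Y]
  {κ : Type} [Fintype κ] {lam : Type} [Fintype lam] {D : YD I3 Y κ lam} {β : YC Y κ lam}

theorem cb_Φ (hβ : D.Adm β) : (cylP D.F.toPre).Cb (cy β).Φ :=
  Cht98.Cb_fst _ (Cb_of_compact (sm_slice_fst hβ.adm.sm 0))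

theorem fl_cut {N : Type} [NormedAddCommGroup N] [NormedSpace ℝ N] {u : Y × ℝ → N} {a b : ℝ}
    (hu : Sm (IC I3) u) (h : ∀ x : Y × ℝ, x.2 ∉ Icc a b → u x = 0) : Fl D.Z.toPre u :=
  .of_hcs hu (.intro (isCompact_univ.prod isCompact_Icc) fun x hx => h x fun k => hx ⟨trivial, k⟩)

theorem Xc_zero (v : Cz β) (th : ℝ → ℝ) {L p q : ℝ} (c : ℝ) (hL : 1 ≤ L) (x : Y × ℝ)
    (h : x.2 ∉ Icc (p - L) (q + L)) : Xc v th L p q c x = 0 := by
  have : chi p q x.2 = 0 := (not_and_or.1 h).elim (fun k => chi_lo (by linarith [not_le.1 k]))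
    fun k => chi_hi (by linarith [not_le.1 k])
  simp [Xc, rot, Th, ret_zero hL h, this, ph]

/-- the parameters of `Tr1Stmt` -/
structure P1 (D : YD I3 Y κ lam) (β : YC Y κ lam) (δ : ℝ) (k : ℕ) (Dd : ℕ → ℝ) (A : ℝ) where
  (η L p q q' c d : ℝ)
  v : Cz β
  (th ψ : ℝ → ℝ)
  vb : Vb D β v
  cb : D.Z.CB k v η
  cd : ContDiff ℝ ∞ th
  bd : Bd k (deriv th) η
  η1 : η ≤ 1
  hL : 1 ≤ L
  pq : p ≤ q
  qq : q ≤ q'
  q2 : q' ≤ q + 2
  c1 : |c| ≤ 1
  c2 : |c + vth th p q q| ≤ 1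
  wd : Wd D.Z.toPre (fun x => ψ x.2) d Dd
  hi : ∀ t, ψ t ≤ δ * tent L p q' t + A

namespace P1
variable {δ A : ℝ} {k : ℕ} {Dd : ℕ → ℝ}

/-- the size of the change -/
def m (d : P1 D β δ k Dd A) : ℝ := d.η + |d.c + vth d.th d.p d.q d.q|

theorem mη (d : P1 D β δ k Dd A) : d.η ≤ d.m := le_add_of_nonneg_right (abs_nonneg _)

theorem m0 (d : P1 D β δ k Dd A) : 0 ≤ d.m := d.bd.nonneg.trans d.mη

theorem vb' (d : P1 D β δ k Dd A) (t : ℝ) :
    |vth d.th d.p d.q' t - vth d.th d.p d.q t| ≤ 3 * d.η := vth_bd d.cd d.bd.abs_le d.qq d.q2 t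

theorem ve (d : P1 D β δ k Dd A) : |vth d.th d.p d.q' d.q' - vth d.th d.p d.q d.q| ≤ 3 * d.η :=
  vth_hi d.cd d.qq ▸ d.vb' d.q'

theorem one {N : Type} [NormedAddCommGroup N] [NormedSpace ℝ N] {f : P1 D β δ k Dd A → Y × ℝ → N}
    (h : UB (cylP D.F.toPre) (fun d _ => d.m) k f) : UB (cylP D.F.toPre) 1 k f :=
  h.wt' 2 (fun _ _ => zero_le_one) fun d _ => by
    have := d.η1; have := d.c2; simp only [m, Pi.one_apply]; linarith

theorem χ (q : P1 D β δ k Dd A → ℝ) : UB (cylP D.F.toPre) 1 k fun d x => chi d.p (q d) x.2 :=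
  (ub_up fun _ => le_rfl).smulR (ub_dn fun _ => le_rfl)

theorem dn' (q : P1 D β δ k Dd A → ℝ) :
    UB (cylP D.F.toPre) 1 k fun d x => dn (q d + d.L) d.L x.2 := ub_dn fun d => d.hL

theorem t1 : UB (cylP D.F.toPre) (fun (d : P1 D β δ k Dd A) _ => d.m) k fun d x => deriv d.th x.2 :=
  UB.wt' (ub_t k fun d => ⟨Neck67.cd_deriv d.cd, d.bd⟩) 1 (fun d _ => d.m0)
    fun d _ => d.mη.trans (one_mul _).ge

theorem v1 : UB (cylP D.F.toPre) (fun (d : P1 D β δ k Dd A) _ => d.m) k fun d => d.v :=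
  ⟨1, zero_le_one, .of_forall fun d x _ => ⟨d.m0, d.vb.cb.choose_spec.1 x,
    (PB.of_CB d.cb x).mono (d.mη.trans (one_mul _).ge)⟩⟩

theorem c' : UB (cylP D.F.toPre) (fun (d : P1 D β δ k Dd A) _ => d.m) k
    fun d _ => d.c + vth d.th d.p d.q d.q :=
  (UB.cst _).wt' 1 (fun d _ => d.m0) fun d _ => by simpa [m] using d.bd.nonneg

theorem θ : CS (cylP D.F.toPre) k fun (d : P1 D β δ k Dd A) x => Th d.th d.L d.p d.q d.c x.2 := by
  have a : UB (cylP D.F.toPre) 1 k fun (d : P1 D β δ k Dd A) _ => d.c :=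
    (UB.cst _).wt' 1 (fun _ _ => zero_le_one) fun d _ => by simpa using d.c1
  have := (cs_of (fun d => sm_snd (cd_vth d.cd d.p d.q)) k (ub_D (fun d => cd_vth d.cd d.p d.q)
    (UB.eq ((χ q).smulR (one t1)) fun d x => (hd_vth d.cd _ _ _).deriv.symm))).add
    ((a.smulR (ub_up (p := fun d => d.p - d.L) fun d => d.hL)).sub
      ((one c').smulR ((ub_const (1 : ℝ)).sub (dn' q))))
  simpa only [Th_eq (cd _) (hL _) (pq _), smul_eq_mul] using this

theorem Δ : UB (cylP D.F.toPre) (fun (d : P1 D β δ k Dd A) _ => d.m) k fun d x =>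
    Th d.th d.L d.p d.q' d.c x.2 - Th d.th d.L d.p d.q d.c x.2 := by
  have s := fun d : P1 D β δ k Dd A => (cd_vth d.cd d.p d.q').sub (cd_vth d.cd d.p d.q)
  have a := (UB.zero' 3 (fun d => sm_snd (s d)) (fun d _ => d.m0) fun d x =>
    (d.vb' x.2).trans (by linarith [d.mη])).succ (ub_D s (UB.eq (((χ q').sub (χ q)).smulR t1)
      fun d x => (sub_mul _ _ _).trans ((hd_vth d.cd _ _ _).sub (hd_vth d.cd _ _ _)).deriv.symm))
  have b : UB (cylP D.F.toPre) (fun (d : P1 D β δ k Dd A) _ => d.m) k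
      fun d _ => vth d.th d.p d.q' d.q' - vth d.th d.p d.q d.q :=
    (UB.cst _).wt' 3 (fun d _ => d.m0) fun d _ => d.ve.trans (by linarith [d.mη])
  refine UB.eq (((a.of_le k.le_succ).sub (b.smulL ((ub_const (1 : ℝ)).sub (dn' q')))).add
    (c'.smulL ((dn' q').sub (dn' q)))) fun d x => ?_
  rw [Th_eq d.cd d.hL d.pq, Th_eq d.cd d.hL (d.pq.trans d.qq), smul_eq_mul, smul_eq_mul]
  ring

variable (hβ : D.Adm β)
include hβ

theorem x0 : UB (cylP D.F.toPre) 1 k fun d : P1 D β δ k Dd A => Xc d.v d.th d.L d.p d.q d.c :=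
  θ.rot (cb_Φ hβ) ((χ q).smulR (one v1))

theorem x1 : UB (cylP D.F.toPre) 1 k fun d : P1 D β δ k Dd A => Xc d.v d.th d.L d.p d.q' d.c := by
  have := (θ.add (one Δ)).rot (cb_Φ hβ) ((χ (δ := δ) (k := k) (Dd := Dd) (A := A) q').smulR (one v1))
  simpa only [add_sub_cancel, Xc] using this

theorem x2 : UB (cylP D.F.toPre) (fun d _ => d.m) k fun d : P1 D β δ k Dd A =>
    Xc d.v d.th d.L d.p d.q' d.c - Xc d.v d.th d.L d.p d.q d.c := by
  have := θ.rot_sub (one Δ) Δ (cb_Φ hβ) ((χ (δ := δ) (k := k) (Dd := Dd) (A := A) q).smulR (one v1))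
    (UB.eq (((χ q').sub (χ q)).smulR v1) fun d x => sub_smul _ _ _)
  simpa only [add_sub_cancel, Xc] using this

theorem nw' (δ0 : 0 < δ) (δ1 : δ ≤ 1) : ∃ K ≥ 0, ∀ d : P1 D β δ k Dd A,
    nw D.Z.toPre k (fun x => d.ψ x.2) (Xc d.v d.th d.L d.p d.q' d.c - Xc d.v d.th d.L d.p d.q d.c) ≤
      K * exp (δ * d.L + (A + 6)) * d.m :=
  nw_cut (s := q') (α := fun d => d.q - 1) (β := fun d => d.q' + d.L) δ0 (x2 hβ) wd m0
    (fun d x hx => by
      rcases not_and_or.1 hx with a | a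
      · have a := (not_le.1 a).le
        have l : 0 < d.L := by linarith [d.hL]
        simp only [Pi.sub_apply, Xc, rot, Th, ret, chi_eq d.qq a, vth_eq d.qq a,
          dn_one l (show x.2 ≤ d.q + d.L - d.L by linarith),
          dn_one l (show x.2 ≤ d.q' + d.L - d.L by linarith [d.qq]), sub_self]
      · exact sub_eq_zero.2 ((Xc_zero _ _ _ d.hL x fun b => a b.2).trans
          (Xc_zero _ _ _ d.hL x fun b => a (b.2.trans (by linarith [d.qq]))).symm))
    fun d t ht => (d.hi t).trans (by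
      have a : tent d.L d.p d.q' t ≤ d.L + (d.q' - t) :=
        max_le (by linarith [ht.2]) (add_le_add le_rfl (min_le_right _ _))
      have b : |t - d.q'| ≤ t - d.q' + 6 := abs_le.2 ⟨by linarith [ht.1, d.q2], by linarith⟩
      nlinarith)

end P1

theorem tr1 : Tr1Stmt I3 Y κ lam := by
  intro D β _ hβ δ δ0 δ1 k Dd A
  obtain ⟨K, k0, hK⟩ := P1.nw' (k := k) (Dd := Dd) (A := A) hβ δ0 δ1
  obtain ⟨K0, k1, h0⟩ := P1.x0 (δ := δ) (k := k) (Dd := Dd) (A := A) hβ
  obtain ⟨K1, k2, h1⟩ := P1.x1 (δ := δ) (k := k) (Dd := Dd) (A := A) hβ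
  refine ⟨K0 + K1 + K * exp (A + 6), by positivity,
    fun η L p q q' c d v th ψ a1 a2 a3 _ a4 a5 a6 a7 a8 a9 b1 b2 b3 b4 => ?_⟩
  let P : P1 D β δ k Dd A := ⟨η, L, p, q, q', c, d, v, th, ψ, a1, a2, a3, a4, a5, a6, a7, a8, a9,
    b1, b2, b3, b4⟩
  have e : 0 ≤ K * exp (A + 6) := by positivity
  refine ⟨⟨fl_cut ((P1.x0 hβ).sm P) (Xc_zero _ _ _ a6), tg_rot hβ.adm _ (tg_smul _ a1.tg)⟩,
    ⟨fl_cut ((P1.x1 hβ).sm P) (Xc_zero _ _ _ a6), tg_rot hβ.adm _ (tg_smul _ a1.tg)⟩,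
    CB_of_PB fun x => (eventually_top.1 h0 P x trivial).2.2.mono (by simp; linarith),
    CB_of_PB fun x => (eventually_top.1 h1 P x trivial).2.2.mono (by simp; linarith), P.ve,
    (hK P).trans (mul_le_mul_of_nonneg_right ?_ P.m0)⟩
  rw [exp_add, mul_comm (exp _), ← mul_assoc]
  exact mul_le_mul_of_nonneg_right (by linarith) (exp_pos _).le

end Crest.Agent.X212.Tr6
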