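import Crest.Agent.X212.Tr6.One

/-!
# Row 212, DEC-TR (helper6): changing the phase
-/

set_option autoImplicit false
set_option linter.unusedSectionVars false
noncomputable section
open scoped Manifold ContDiff Topology InnerProductSpace
open MeasureTheory Set Function Filter Real

namespace Crest.Agent.X212.Tr6
open An Map77 Sob92 Nd18 Cyf70 Dec35 Rsp69
open Neck67 (up_one dn_one)

theorem int_bd {Y V : Type*} [MeasurableSpace Y] [NormedAddCommGroup V] {μ : Measure Y}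
    [IsFiniteMeasure μ] {g : Y → ℝ} {b : Y → V} (hb : Integrable (fun y => ‖b y‖ ^ 2) μ) {C a : ℝ}
    (c0 : 0 ≤ C) (a0 : 0 ≤ a) (h : ∀ y, |g y| ≤ C * a * (a + ‖b y‖)) :
    |∫ y, g y ∂μ| ≤ C * (2 * μ.real univ + 1) * a * (a + √(∫ y, ‖b y‖ ^ 2 ∂μ)) := by
  rcases a0.eq_or_lt with rfl | a0
  · simp [show g = 0 from funext fun y => by simpa using h y]
  have q := sq_sqrt (integral_nonneg (μ := μ) fun y => sq_nonneg ‖b y‖)
  have s0 := sqrt_nonneg (∫ y, ‖b y‖ ^ 2 ∂μ)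
  set S := √(∫ y, ‖b y‖ ^ 2 ∂μ)
  have l0 : 0 < a + S := by positivity
  refine (norm_integral_le_of_norm_le (f := g) (((integrable_const (2 * (a + S))).add
    (hb.div_const (a + S))).const_mul (C * a)) (.of_forall fun y => (h y).trans
      (mul_le_mul_of_nonneg_left ?_ (by positivity)))).trans ?_
  · have : ‖b y‖ - (a + S) ≤ ‖b y‖ ^ 2 / (a + S) := by
      rw [le_div_iff₀ l0]; nlinarith [sq_nonneg (‖b y‖ - (a + S)), norm_nonneg (b y)]
    simp only [Pi.add_apply]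
    linarith
  · have : S ^ 2 / (a + S) ≤ a + S := by rw [div_le_iff₀ l0]; nlinarith
    simp only [Pi.add_apply]
    rw [integral_const_mul, integral_add (integrable_const _) (hb.div_const _), integral_const,
      integral_div, ← q, smul_eq_mul]
    nlinarith [mul_le_mul_of_nonneg_left this (mul_nonneg c0 a0.le)]

theorem ph_bd {V : Type*} [NormedAddCommGroup V] [NormedSpace ℝ V] (J : V →L[ℝ] V) {a R : ℝ}
    (ha : |a| ≤ 1) (φ u : V) (h : ‖φ‖ ≤ R) :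
    ‖(cos a • (φ + u) + sin a • J (φ + u) - (φ + u)) - a • J φ‖ ≤
      (1 + ‖J‖) * (1 + R) * |a| * (|a| + ‖u‖) := by
  have a0 := abs_nonneg a
  have a2 : a ^ 2 = |a| * |a| := by rw [← sq, sq_abs]
  have c1 : |cos a - 1| ≤ |a| * |a| := abs_le.2
    ⟨by nlinarith [one_sub_sq_div_two_le_cos (x := a)], by nlinarith [cos_le_one a]⟩
  have c2 : |sin a - a| ≤ |a| * |a| := by
    have := abs_sub_sin_le a
    rw [abs_sub_comm]
    nlinarith [mul_nonneg a0 a0]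
  have R0 := (norm_nonneg _).trans h
  have j := norm_nonneg J
  have u0 := norm_nonneg u
  have e : (cos a • (φ + u) + sin a • J (φ + u) - (φ + u)) - a • J φ =
      (cos a - 1) • φ + (sin a - a) • J φ + ((cos a - 1) • u + sin a • J u) := by
    rw [map_add]; module
  have n1 : ‖(cos a - 1) • φ‖ ≤ |a| * |a| * R := by rw [norm_smul]; gcongr; exact c1
  have n2 : ‖(sin a - a) • J φ‖ ≤ |a| * |a| * (‖J‖ * R) := by
    rw [norm_smul]; gcongr; exacts [c2, J.le_opNorm_of_le h]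
  have n3 : ‖(cos a - 1) • u‖ ≤ |a| * ‖u‖ := by
    rw [norm_smul]; gcongr; exact c1.trans (mul_le_of_le_one_right a0 ha)
  have n4 : ‖sin a • J u‖ ≤ |a| * (‖J‖ * ‖u‖) := by
    rw [norm_smul]; gcongr; exacts [abs_sin_le_abs, J.le_opNorm u]
  rw [e]
  refine (norm_add_le_of_le (norm_add_le_of_le n1 n2) (norm_add_le_of_le n3 n4)).trans ?_
  have := mul_nonneg (mul_nonneg (add_nonneg zero_le_one j) a0) (add_nonneg a0 (mul_nonneg R0 u0))
  nlinarith

section gen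
variable {M ι lam : Type} [Fintype ι] [Fintype lam] {r : ℕ} (c : Cfg M ι lam r)

/-- the action of a map of spinors on variations -/
def c2 : CL c.m.V c.m.V →L[ℝ] Cv c →L[ℝ] Cv c :=
  ContinuousLinearMap.compL ℝ _ _ _ (i2 _ _) ∘L (ContinuousLinearMap.compL ℝ _ _ _).flip fp

/-- the change of a variation -/
def tm (θ : ℝ) : Cv c →L[ℝ] Cv c := c2 c (ph c (0 + θ) - ph c 0)

theorem tm_apply (θ : ℝ) (u : Cv c) :
    tm c θ u = i2 _ _ (cos θ • fp u + sin θ • c.m.J (fp u) - fp u) := by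
  show i2 _ _ ((ph c (0 + θ) - ph c 0) (fp u)) = _
  simp [ph]

theorem rot_eq (θ : M → ℝ) (u : M → Cv c) : rot c θ u - u =
    (fun x => tm c (θ x) (i2 _ _ (c.Φ x))) + fun x => tm c (θ x) (u x) := funext fun x => by
  rw [Pi.add_apply, ← map_add, tm_apply]
  refine ext2 (by simp [rot]) ?_
  simp only [rot, ph, Pi.sub_apply, map_sub, map_add, s2_i1, s2_i2, zero_add, add_apply, smul_apply,
    one_apply_eq_self, sub_sub, smul_add]
  abel

theorem pt_bd {a R R' : ℝ} (ha : |a| ≤ 1) (n u : Cv c) (φ : c.m.V) (h : ‖φ‖ ≤ R) (h' : ‖fp n‖ ≤ R') :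
    |⟪n, tm c a (i2 _ _ φ) + tm c a u⟫_ℝ - ⟪fp n, c.m.J φ⟫_ℝ * a| ≤
      R' * ((1 + ‖c.m.J‖) * (1 + R)) * (1 + ‖(fp : Cv c →L[ℝ] _)‖) * |a| * (|a| + ‖u‖) := by
  have R0 := (norm_nonneg _).trans h
  have R1 := (norm_nonneg _).trans h'
  rw [← map_add, tm_apply, inner2, f2_i2, inner_zero_right, zero_add, s2_i2, mul_comm,
    ← real_inner_smul_right, ← inner_sub_right, map_add, s2_i2]
  refine (abs_real_inner_le_norm _ _).trans ((mul_le_mul h' (ph_bd _ ha _ _ h) (norm_nonneg _)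
    R1).trans ?_)
  have f0 := norm_nonneg (fp : Cv c →L[ℝ] _)
  have : |a| + ‖fp u‖ ≤ (1 + ‖(fp : Cv c →L[ℝ] _)‖) * (|a| + ‖u‖) := by
    nlinarith [fp.le_opNorm u, norm_nonneg u, mul_nonneg f0 (abs_nonneg a)]
  calc _ ≤ R' * ((1 + ‖c.m.J‖) * (1 + R) * |a| * ((1 + ‖(fp : Cv c →L[ℝ] _)‖) * (|a| + ‖u‖))) := by
        gcongr
    _ = _ := by ring

end gen

variable {E3 : Type} [NormedAddCommGroup E3] [NormedSpace ℝ E3] [FiniteDimensional ℝ E3]
  [MeasurableSpace E3] [BorelSpace E3]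
  {H3 : Type} [TopologicalSpace H3] {I3 : ModelWithCorners ℝ E3 H3} [I3.Boundaryless]
  {Y : Type} [TopologicalSpace Y] [ChartedSpace H3 Y] [IsManifold I3 ∞ Y] [T2Space Y]
  [MeasurableSpace Y] [BorelSpace Y] [SecondCountableTopology Y] [CompactSpace Y]
  {κ : Type} [Fintype κ] {lam : Type} [Fintype lam] {D : YD I3 Y κ lam} {β : YC Y κ lam}

theorem UB.app {𝒟 : Type} {c : Cfg (Y × ℝ) (Option κ) lam 0} {F : Pre (IC I3) (Y × ℝ) (Option κ)}
    {w : 𝒟 → Y × ℝ → ℝ} {T : 𝒟 → Y × ℝ → Cv c →L[ℝ] Cv c} {k : ℕ} (h : UB F w k T)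
    (h' : F.Cb c.Φ) : UB F w k fun d x => T d x (i2 _ _ (c.Φ x)) := by
  have a : UB (𝒟 := 𝒟) F 1 k fun _ => c.Φ := Bk.of_Cb h'
  have b := Bk.appL h (UB.cl (i2 (Fm (Option κ) (HS (Fin c.m.N))) _) a)
  exact b

theorem row_bd (hβ : D.Adm β) {n : Y → Cv (cy β)} {ν : ℝ} (hn : Rw D β n ν) : ∃ K ≥ 0,
    ∀ (θ : Y × ℝ → ℝ) (u : Y × ℝ → Cv (cy β)) (s a : ℝ), |a| ≤ 1 → (∀ y, θ (y, s) = a) →
      Continuous u →
      |row D n (rot (cy β) θ u) s - row D n u s - ν * a| ≤ K * |a| * (|a| + sl D u s) := by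
  have := D.F.fin
  have cΦ := hβ.adm.sm.continuous
  have cn := hn.sm.continuous
  obtain ⟨R, hR⟩ := isCompact_univ.exists_bound_of_continuousOn
    (sm_slice_fst hβ.adm.sm 0).continuous.continuousOn
  obtain ⟨R', hR'⟩ := isCompact_univ.exists_bound_of_continuousOn (fp.continuous.comp cn).continuousOn
  have i : ∀ {g : Y → ℝ}, Continuous g → Integrable g D.F.μ := fun h =>
    h.integrable_of_hasCompactSupport (.of_compactSpace _)
  have p : 0 ≤ |R'| * ((1 + ‖(cy β).m.J‖) * (1 + |R|)) * (1 + ‖(fp : Cv (cy β) →L[ℝ] _)‖) := by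
    positivity
  refine ⟨_, mul_nonneg p (by positivity : 0 ≤ 2 * D.F.μ.real univ + 1), fun θ u s a ha e cu => ?_⟩
  have e1 : ∀ y, rot (cy β) θ u (y, s) = tm (cy β) a (i2 _ _ ((cy β).Φ (y, s))) +
      tm (cy β) a (u (y, s)) + u (y, s) := fun y => by
    rw [← e y]
    exact sub_eq_iff_eq_add.1 (congrFun (rot_eq _ θ u) (y, s))
  have e2 : ∫ y, ⟪fp (n y), (cy β).m.J ((cy β).Φ (y, s))⟫_ℝ ∂D.F.μ = ν := hn.J
  have cs : Continuous fun y => (cy β).Φ (y, s) := cΦ.comp (.prodMk_left s)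
  have cv : Continuous fun y => u (y, s) := cu.comp (.prodMk_left s)
  have ct := (tm (cy β) a).continuous
  have i1 : Integrable (fun y => ⟪n y, tm (cy β) a (i2 _ _ ((cy β).Φ (y, s))) +
      tm (cy β) a (u (y, s))⟫_ℝ) D.F.μ := i (cn.inner (𝕜 := ℝ) ((ct.comp ((i2 _ _).continuous.comp cs)).add (ct.comp cv)))
  have i3 := i (((fp.continuous.comp cn).inner (𝕜 := ℝ) ((cy β).m.J.continuous.comp cs)).mul_const a)
  simp only [row, e1, inner_add_right _ (_ + _)]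
  rw [integral_add i1 (i (cn.inner (𝕜 := ℝ) cv)), add_sub_cancel_right, ← e2,
    ← integral_mul_const]
  refine ((congrArg _ (integral_sub i1 i3)).ge).trans ?_
  exact int_bd (b := fun y => u (y, s)) (i (cv.norm.pow 2)) p (abs_nonneg a) fun y =>
    pt_bd _ ha _ _ ((cy β).Φ (y, s)) ((hR y trivial).trans (le_abs_self _))
      ((hR' y trivial).trans (le_abs_self _))

/-- the parameters of `Tr2Stmt` -/
structure P2' (D : YD I3 Y κ lam) (δ : ℝ) (Dd : ℕ → ℝ) (A : ℝ) where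
  (L p q a d : ℝ)
  ψ : ℝ → ℝ
  hL : 1 ≤ L
  pq : p ≤ q
  a1 : |a| ≤ 1
  wd : Wd D.Z.toPre (fun x => ψ x.2) d Dd
  tn : ∀ t, δ * tent L p q t ≤ ψ t ∧ ψ t ≤ δ * tent L p q t + A

variable {δ A : ℝ} {Dd : ℕ → ℝ}

theorem ub_tm (β : YC Y κ lam) (k : ℕ) : UB (cylP D.F.toPre) (fun (d : P2' D δ Dd A) _ => |d.a|) k
    fun d x => tm (cy β) (ret d.L d.p d.q x.2 * d.a) := by
  have a : UB (cylP D.F.toPre) (fun (d : P2' D δ Dd A) _ => |d.a|) k
      fun d x => ret d.L d.p d.q x.2 * d.a :=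
    ((ub_up fun d => d.hL).smulR (ub_dn fun d => d.hL)).smulR (UB.cst _)
  exact UB.cl _ (CS.ph_sub ⟨ub_const (cos 0), ub_const (sin 0)⟩ (a.wt' 1 (fun _ _ => zero_le_one)
    fun d _ => by simpa using d.a1) a)

theorem tm_zero (d : P2' D δ Dd A) (x : Y × ℝ) (hx : x.2 ∉ Icc (d.p - d.L) (d.q + d.L)) :
    tm (cy β) (ret d.L d.p d.q x.2 * d.a) (i2 _ _ ((cy β).Φ x)) = 0 := by
  simp [tm_apply, ret_zero d.hL hx]

theorem ub_tΦ (hβ : D.Adm β) (k : ℕ) : UB (cylP D.F.toPre) (fun (d : P2' D δ Dd A) _ => |d.a|) k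
    fun d x => tm (cy β) (ret d.L d.p d.q x.2 * d.a) (i2 _ _ ((cy β).Φ x)) :=
  UB.app (ub_tm β k) (cb_Φ hβ)

theorem nw_tΦ (hβ : D.Adm β) (δ0 : 0 < δ) (k : ℕ) : ∃ K ≥ 0, ∀ d : P2' D δ Dd A,
    nw D.Z.toPre k (fun x => d.ψ x.2)
      (fun x => tm (cy β) (ret d.L d.p d.q x.2 * d.a) (i2 _ _ ((cy β).Φ x))) ≤
        K * exp (d.ψ ((d.p + d.q) / 2) + A) * |d.a| :=
  nw_cut (s := fun d => (d.p + d.q) / 2) δ0 (ub_tΦ hβ k) P2'.wd (fun _ => abs_nonneg _) tm_zero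
    fun d t ht => by
      have a : tent d.L d.p d.q t + |t - (d.p + d.q) / 2| ≤ tent d.L d.p d.q ((d.p + d.q) / 2) := by
        have := ht.1; have := ht.2; have := d.pq; have := d.hL
        simp only [tent, max_def, min_def, abs_eq_max_neg]
        split_ifs <;> linarith
      nlinarith [(d.tn t).2, (d.tn ((d.p + d.q) / 2)).1]

theorem tr2 : Tr2Stmt I3 Y κ lam := by
  intro D β _ hβ n ν hn δ δ0 k Dd A
  obtain ⟨K0, k0, h0⟩ := row_bd hβ hn
  obtain ⟨K1, k1, h1⟩ := nw_tΦ (A := A) (Dd := Dd) hβ δ0 k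
  choose K2 k2 h2 using ub_tm (D := D) (δ := δ) (A := A) (Dd := Dd) β
  have c := cK_nonneg (ι := Option κ) k
  have := k2 k
  refine ⟨K0 + 2 * (K1 * exp A + cK (Option κ) k * K2 k), by positivity,
    fun L p q a d ψ u a1 a2 a3 a4 a5 hu => ?_⟩
  let P : P2' D δ Dd A := ⟨L, p, q, a, d, ψ, a1, a2, a3, a4, a5⟩
  have s : Sm (IC I3) fun x : Y × ℝ => tm (cy β) (ret L p q x.2 * a) := (ub_tm β 0).sm P
  have cb : ∀ j, D.Z.CB j (fun x : Y × ℝ => tm (cy β) (ret L p q x.2 * a)) (K2 j * |a|) :=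
    fun j => CB_of_PB fun x => (eventually_top.1 (h2 j) P x trivial).2.2
  have f1 : Fl D.Z.toPre fun x => tm (cy β) (ret L p q x.2 * a) (i2 _ _ ((cy β).Φ x)) :=
    fl_cut ((ub_tΦ hβ 0).sm P) (tm_zero P)
  have f2 := hu.fl.app ⟨_, s, cb⟩
  have a0 := abs_nonneg a
  refine ⟨⟨?_, tg_rot hβ.adm _ hu.tg⟩, ?_, (h0 _ u _ a a3 (fun y => ?_) hu.fl.sm.continuous).trans ?_⟩
  · rw [sub_eq_iff_eq_add.1 (rot_eq _ _ u)]
    exact (f1.add f2).add hu.fl
  · have b1 : _ ≤ K1 * exp (ψ ((p + q) / 2) + A) * |a| := h1 P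
    have b2 := nw_app a4 s (cb k) hu.fl
    have b3 := nrm_add2 (a4.fl f1) (a4.fl f2) k
    have n0 := nw_nonneg (F := D.Z) (ψ := fun x => ψ x.2) k u
    have e0 := (exp_pos (ψ ((p + q) / 2))).le
    rw [abs_of_nonneg (by positivity)] at b2
    rw [exp_add] at b1
    rw [rot_eq]
    refine ((le_of_eq (congrArg _ (funext fun x => smul_add _ _ _))).trans
      (b3.trans (mul_le_mul_of_nonneg_left (add_le_add b1 b2) zero_le_two))).trans ?_
    have := mul_nonneg (mul_nonneg k0 a0) (add_nonneg e0 n0)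
    have := mul_nonneg (mul_nonneg (mul_nonneg k1 (exp_pos A).le) a0) n0
    have := mul_nonneg (mul_nonneg (mul_nonneg c (k2 k)) a0) e0
    nlinarith
  · rw [ret, up_one (by linarith) (by linarith), dn_one (by linarith) (by linarith), one_mul, one_mul]
  · gcongr
    · exact add_nonneg a0 (sqrt_nonneg _)
    · exact le_add_of_nonneg_right (by positivity)

end Crest.Agent.X212.Tr6
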