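import Crest.Agent.X212.Dec35.Lv
import Crest.Agent.X212.Rsp69.Loc
import Crest.Agent.X212.Cay24.Alg
import Crest.Agent.X212.Cht98.Cov
import Mathlib.Analysis.SpecialFunctions.ImproperIntegrals

/-!
# Row 212, DEC-TR (helper6): uniform pointwise bounds and weighted norms on the cylinder
-/

set_option autoImplicit false
set_option linter.unusedSectionVars false
noncomputable section
open scoped Manifold ContDiff Topology InnerProductSpace
open MeasureTheory Set Function Filter Real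

namespace Crest.Agent.X212.Tr6
open An Map77 Sob92 Nd18 Cyf70 Dec35 Rsp69
open Neck67 (Bd)

section gen
variable {E : Type} [NormedAddCommGroup E] [NormedSpace ℝ E] [FiniteDimensional ℝ E]
  [MeasurableSpace E] [BorelSpace E]
  {HM : Type} [TopologicalSpace HM] {I : ModelWithCorners ℝ E HM} [I.Boundaryless]
  {M : Type} [TopologicalSpace M] [ChartedSpace HM M] [IsManifold I ∞ M] [MeasurableSpace M]
  [T2Space M] [BorelSpace M] [SecondCountableTopology M]
  {ι : Type} [Fintype ι] {lam : Type} [Fintype lam]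
  {N : Type} [NormedAddCommGroup N] [NormedSpace ℝ N] {𝒟 : Type*}

/-- bounds which are uniform in a family -/
abbrev UB (F : Pre I M ι) (w : 𝒟 → M → ℝ) (k : ℕ) (f : 𝒟 → M → N) : Prop :=
  Bk (N := fun _ => N) (fun _ => F) ⊤ (fun _ => univ) w k f

variable {F : Pre I M ι} {k : ℕ} {w : 𝒟 → M → ℝ} {f g : 𝒟 → M → N} {θ Δ : 𝒟 → M → ℝ}

theorem UB.eq (h : UB F w k f) (e : ∀ d x, f d x = g d x) : UB F w k g :=
  (funext fun d => funext (e d) : f = g) ▸ h

theorem UB.sm (h : UB F w k f) (d : 𝒟) : Sm I (f d) := fun x => eventually_top.1 h.sa d x trivial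

theorem UB.zero' (C : ℝ) (h : ∀ d, Sm I (f d)) (hw : ∀ d x, 0 ≤ w d x)
    (b : ∀ d x, ‖f d x‖ ≤ C * w d x) : UB F w 0 f :=
  ⟨|C|, abs_nonneg _, .of_forall fun d x _ => ⟨hw d x, h d x, .zero' ((b d x).trans
    (mul_le_mul_of_nonneg_right (le_abs_self C) (hw d x)))⟩⟩

theorem UB.wt' (h : UB F w k f) {w' : 𝒟 → M → ℝ} (C : ℝ) (h0 : ∀ d x, 0 ≤ w' d x)
    (h1 : ∀ d x, w d x ≤ C * w' d x) : UB F w' k f :=
  h.wt (.of_forall fun d x _ => ⟨h0 d x, h1 d x⟩)

theorem UB.cst (c : 𝒟 → ℝ) : UB F (fun d _ => |c d|) k fun d _ => c d :=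
  ⟨1, zero_le_one, .of_forall fun d x _ => ⟨abs_nonneg _, contMDiffAt_const,
    (PB.const k (c d) x).mono (by simp)⟩⟩

theorem UB.cl {N' : Type} [NormedAddCommGroup N'] [NormedSpace ℝ N'] (L : N →L[ℝ] N')
    (h : UB F w k f) : UB F w k fun d x => L (f d x) := h.clm (L := fun _ => L) (.const _)

theorem ub_const (c : N) : UB (𝒟 := 𝒟) F 1 k fun _ _ => c := Bk.const (.const _)

theorem ub_exp {ψ : 𝒟 → M → ℝ} {dd : 𝒟 → ℝ} {D : ℕ → ℝ} (h : ∀ d, Wd F (ψ d) (dd d) D) (k : ℕ) :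
    UB F (fun d x => exp (ψ d x)) k fun d x => exp (ψ d x) := by
  have h0 : UB F (fun d x => exp (ψ d x)) 0 fun d x => exp (ψ d x) :=
    .zero' 1 (fun d => Mon62.sm_comp contDiff_exp (h d).sm) (fun _ _ => (exp_pos _).le) (by simp)
  induction k with
  | zero => exact h0
  | succ k ih =>
    refine h0.succ fun a => UB.eq ((Bk.of_CBs (.of_forall fun d => (h d).der a)).smulR ih)
      fun d x => ?_
    rw [Mon62.D_comp contDiff_exp (h d).sm, Real.deriv_exp, smul_eq_mul, mul_comm]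

/-- bounded phases -/
def CS (F : Pre I M ι) (k : ℕ) (θ : 𝒟 → M → ℝ) : Prop :=
  UB F 1 k (fun d x => cos (θ d x)) ∧ UB F 1 k fun d x => sin (θ d x)

theorem cs_of (h : ∀ d, Sm I (θ d)) (k : ℕ) : (∀ a, UB F 1 k fun d => F.D a (θ d)) → CS F k θ := by
  have h0 : CS F 0 θ :=
    ⟨.zero' 1 (fun d => Mon62.sm_comp contDiff_cos (h d)) (fun _ _ => zero_le_one)
      fun _ _ => by simpa using abs_cos_le_one _,
    .zero' 1 (fun d => Mon62.sm_comp contDiff_sin (h d)) (fun _ _ => zero_le_one)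
      fun _ _ => by simpa using abs_sin_le_one _⟩
  induction k with
  | zero => exact fun _ => h0
  | succ k ih =>
    intro b
    have c := fun a => (b a).of_le k.le_succ
    refine ⟨h0.1.succ fun a => UB.eq ((ih c).2.neg.smulR (c a)) fun d x => ?_,
      h0.2.succ fun a => UB.eq ((ih c).1.smulR (c a)) fun d x => ?_⟩
    · rw [Mon62.D_comp contDiff_cos (h d), Real.deriv_cos', smul_eq_mul]
    · rw [Mon62.D_comp contDiff_sin (h d), Real.deriv_sin, smul_eq_mul]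

theorem CS.add (h : CS F k θ) (b : UB F 1 k Δ) : CS F k fun d x => θ d x + Δ d x :=
  ⟨UB.eq ((h.1.smulR (b.comp k contDiff_cos)).sub (h.2.smulR (b.comp k contDiff_sin)))
    fun _ _ => (cos_add _ _).symm,
   UB.eq ((h.2.smulR (b.comp k contDiff_cos)).add (h.1.smulR (b.comp k contDiff_sin)))
    fun _ _ => (sin_add _ _).symm⟩

variable {r : ℕ} {c : Cfg M ι lam r}

theorem CS.ph (h : CS F k θ) : UB F 1 k fun d x => ph c (θ d x) :=
  (h.1.smulL (ub_const _)).add (h.2.smulL (ub_const _))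

theorem CS.ph_sub (h : CS F k θ) (b : UB F 1 k Δ) (b' : UB F w k Δ) :
    UB F w k fun d x => Dec35.ph c (θ d x + Δ d x) - Dec35.ph c (θ d x) := by
  have z : UB F w k fun d x => Δ d x - 0 := UB.eq b' fun _ _ => (sub_zero _).symm
  refine UB.eq (((b.comp_sub k contDiff_cos (ub_const 0) z).smulL (h.ph (c := c))).add
    ((b.comp_sub k contDiff_sin (ub_const 0) z).smulL ((h.2.neg.smulL (ub_const 1)).add
      (h.1.smulL (ub_const c.m.J))))) fun d x => ?_
  simp only [Dec35.ph, cos_add, sin_add, cos_zero, sin_zero]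
  module

variable {v v' : 𝒟 → M → Cv c}

theorem CS.rot (h : CS F k θ) (hΦ : F.Cb c.Φ) (hv : UB F 1 k v) :
    UB F 1 k fun d => Dec35.rot c (θ d) (v d) := by
  have a0 : UB (𝒟 := 𝒟) F 1 k fun _ => c.Φ := Bk.of_Cb hΦ
  have a1 := ((h.ph (c := c)).appL (a0.add (hv.cl fp))).sub a0
  exact UB.eq ((UB.cl (i1 _ _) (hv.cl fa)).add (UB.cl (i2 _ _) a1)) fun d x => by rw [Dec35.rot]

theorem CS.rot_sub (h : CS F k θ) (b : UB F 1 k Δ) (b' : UB F w k Δ) (hΦ : F.Cb c.Φ)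
    (hv : UB F 1 k v) (hv' : UB F w k fun d x => v' d x - v d x) :
    UB F w k fun d => Dec35.rot c (fun x => θ d x + Δ d x) (v' d) - Dec35.rot c (θ d) (v d) := by
  have a1 := ((h.add b).ph (c := c)).appR (hv'.cl fp)
  have a2 := (h.ph_sub (c := c) b b').appL ((Bk.of_Cb hΦ).add (hv.cl fp))
  refine UB.eq ((UB.cl (i1 _ _) (hv'.cl fa)).add (UB.cl (i2 _ _) (a1.add a2))) fun d x => ?_
  refine ext2 (by simp [Dec35.rot]) ?_
  simp only [Pi.sub_apply, Dec35.rot, map_sub, map_add, sub_apply, s2_i1, s2_i2, zero_add]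
  abel

theorem tg_rot {B : Base M ι lam} {G : Geo I M ι lam} (hc : c.Adm B G) (θ : M → ℝ) {u : M → Cv c}
    (hu : Tg B c u) : Tg B c (rot c θ u) := by
  obtain ⟨h1, h2, h3⟩ := Cay24.tg_iff.1 hu
  have e : ∀ x, fa (rot c θ u x) = fa (u x) := fun x => by simp [rot]
  refine Cay24.tg_iff.2 ⟨fun x => e x ▸ h1 x, fun x => e x ▸ h2 x, fun x => ?_⟩
  have j : ∀ y, c.m.pp B x (c.m.J y) = c.m.J (c.m.pp B x y) := fun y =>
    (congrArg (· y) (Wz78.J_pp hc.ok x)).symm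
  simp [rot, ph, j, h3 x, hc.pos x]

theorem tg_smul {B : Base M ι lam} (χ : M → ℝ) {u : M → Cv c} (hu : Tg B c u) :
    Tg B c fun x => χ x • u x := fun x => by rw [map_smul, hu x]

theorem nrm_add2 {V : Type} [NormedAddCommGroup V] [InnerProductSpace ℝ V] {u v : M → V}
    (hu : Fl F u) (hv : Fl F v) (k : ℕ) : F.nrm k (u + v) ≤ 2 * (F.nrm k u + F.nrm k v) := by
  have a := nrm_nonneg (F := F) k u
  have b := nrm_nonneg (F := F) k v
  refine nrm_le_of_sq (by positivity) ((Cay24.N2_add k hu hv).trans ?_)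
  rw [← nrm_sq, ← nrm_sq]
  nlinarith [mul_nonneg a b]

theorem N2_le {G : M → ℝ} (hG : Integrable (fun x => G x ^ 2) F.μ) (k : ℕ) : ∀ {u : M → N},
    (∀ x, PB F k u x (G x)) → N2 F k u ≤ (1 + Fintype.card ι) ^ k * ∫ x, G x ^ 2 ∂F.μ := by
  have h0 : ∀ {u : M → N} {k}, (∀ x, PB F k u x (G x)) → N2 F 0 u ≤ ∫ x, G x ^ 2 ∂F.μ := fun h =>
    integral_mono_of_nonneg (.of_forall fun _ => by positivity) hG
      (.of_forall fun x => pow_le_pow_left₀ (norm_nonneg _) (h x).bd 2)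
  have p : 0 ≤ ∫ x, G x ^ 2 ∂F.μ := integral_nonneg fun _ => by positivity
  induction k with
  | zero => exact fun h => by simpa using h0 h
  | succ k ih =>
    intro u h
    refine (add_le_add (h0 h) (Finset.sum_le_sum fun a _ => ih fun x => (h x).D a)).trans ?_
    have : (1 : ℝ) ≤ (1 + Fintype.card ι) ^ k := one_le_pow₀ (by simp)
    simp only [Finset.sum_const, Finset.card_univ, nsmul_eq_mul]
    rw [pow_succ]
    nlinarith [mul_le_mul_of_nonneg_right this p]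

end gen

variable {E3 : Type} [NormedAddCommGroup E3] [NormedSpace ℝ E3] [FiniteDimensional ℝ E3]
  [MeasurableSpace E3] [BorelSpace E3]
  {H3 : Type} [TopologicalSpace H3] {I3 : ModelWithCorners ℝ E3 H3} [I3.Boundaryless]
  {Y : Type} [TopologicalSpace Y] [ChartedSpace H3 Y] [IsManifold I3 ∞ Y] [T2Space Y]
  [MeasurableSpace Y] [BorelSpace Y] [SecondCountableTopology Y] [CompactSpace Y]
  {κ : Type} [Fintype κ] {𝒟 : Type*} {F : Pre I3 Y κ} {k : ℕ}
  {V : Type} [NormedAddCommGroup V] [InnerProductSpace ℝ V]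

theorem int_exp {δ : ℝ} (hδ : 0 < δ) : Integrable fun t : ℝ => exp (-δ * |t|) := by
  rw [← integrableOn_univ, ← Iic_union_Ioi (a := 0)]
  exact ((integrableOn_exp_mul_Iic hδ 0).congr_fun (fun t ht => by
    simp [abs_of_nonpos (show t ≤ 0 from ht)]) measurableSet_Iic).union
    ((integrableOn_exp_mul_Ioi (neg_lt_zero.2 hδ) 0).congr_fun (fun t ht => by
      simp [abs_of_pos (show 0 < t from ht)]) measurableSet_Ioi)

theorem nrm_of_pb (F : Pre I3 Y κ) {δ : ℝ} (hδ : 0 < δ) (k : ℕ) : ∃ K ≥ 0, ∀ (u : Y × ℝ → V) (s m : ℝ),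
    0 ≤ m → (∀ x, PB (cylP F) k u x (m * exp (-δ * |x.2 - s|))) → (cylP F).nrm k u ≤ K * m := by
  have := F.fin
  have i := int_exp (δ := 2 * δ) (by positivity)
  have p : 0 ≤ (1 + Fintype.card (Option κ) : ℝ) ^ k * (F.μ.real univ * ∫ t : ℝ, exp (-(2 * δ) * |t|)) :=
    mul_nonneg (by positivity) (mul_nonneg measureReal_nonneg (integral_nonneg fun _ => (exp_pos _).le))
  have q := sq_sqrt p
  set K := √((1 + Fintype.card (Option κ) : ℝ) ^ k * (F.μ.real univ * ∫ t : ℝ, exp (-(2 * δ) * |t|)))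
  refine ⟨K, sqrt_nonneg _, fun u s m hm h => nrm_le_of_sq (mul_nonneg (sqrt_nonneg _) hm) ?_⟩
  have e : ∀ x : Y × ℝ, (m * exp (-δ * |x.2 - s|)) ^ 2 = m ^ 2 * exp (-(2 * δ) * |x.2 - s|) := fun x => by
    rw [mul_pow, ← exp_nat_mul]; congr 2; push_cast; ring
  refine (N2_le ?_ k h).trans_eq ?_
  · simp only [e]
    exact (((i.comp_sub_right s).comp_snd F.μ)).const_mul _
  · simp only [e]
    rw [mul_pow, q, integral_const_mul, cylP_μ,
      integral_fun_snd fun t : ℝ => exp (-(2 * δ) * |t - s|),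
      integral_sub_right_eq_self (fun t : ℝ => exp (-(2 * δ) * |t|)) s, smul_eq_mul]
    ring

/-- the weighted norm of a family which is supported where the weight decays -/
theorem nw_cut {δ : ℝ} (hδ : 0 < δ) {f : 𝒟 → Y × ℝ → V} {m a s α β dd : 𝒟 → ℝ} {ψ : 𝒟 → ℝ → ℝ}
    {D : ℕ → ℝ} (hf : UB (cylP F) (fun d _ => m d) k f)
    (hψ : ∀ d, Wd (cylP F) (fun x => ψ d x.2) (dd d) D) (h0 : ∀ d, 0 ≤ m d)
    (h1 : ∀ d x, x.2 ∉ Icc (α d) (β d) → f d x = 0)
    (h2 : ∀ d, ∀ t ∈ Icc (α d) (β d), ψ d t ≤ a d - δ * |t - s d|) :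
    ∃ K ≥ 0, ∀ d, nw (cylP F) k (fun x => ψ d x.2) (f d) ≤ K * exp (a d) * m d := by
  obtain ⟨K, k0, hK⟩ := nrm_of_pb (V := V) F hδ k
  obtain ⟨C, c0, hC⟩ := Bk.bil (B := fun _ => ContinuousLinearMap.lsmul ℝ ℝ (E := V)) (.const _)
    (ub_exp hψ k) hf
  refine ⟨K * C, by positivity, fun d => (hK _ (s d) (C * exp (a d) * m d)
    (by have := h0 d; positivity) fun x => ?_).trans_eq (by ring)⟩
  by_cases hx : x.2 ∈ Icc (α d) (β d)
  · refine (eventually_top.1 hC d x trivial).2.2.mono ?_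
    have := exp_le_exp.2 (h2 d _ hx)
    rw [sub_eq_add_neg, exp_add, ← neg_mul] at this
    have := mul_le_mul_of_nonneg_left this (mul_nonneg c0 (h0 d))
    linarith
  · refine .of_ev_zero k (mem_of_superset ((isClosed_Icc.preimage continuous_snd).isOpen_compl.mem_nhds
      hx) fun y hy => ?_) (by have := h0 d; positivity)
    simp [h1 d y hy]

variable {f : 𝒟 → ℝ → ℝ} {w : 𝒟 → Y × ℝ → ℝ}

theorem ub_D (h : ∀ d, ContDiff ℝ ∞ (f d)) (h1 : UB (cylP F) w k fun d x => deriv (f d) x.2)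
    (a : Option κ) : UB (cylP F) w k fun d => (cylP F).D a fun x => f d x.2 := by
  cases a with
  | none => exact UB.eq h1 fun d x => by rw [D_none_snd F (h d)]
  | some a => exact UB.eq (Bk.zero h1.nn) fun d x => by rw [D_some_snd F (h d)]; rfl

theorem ub_t (k : ℕ) : ∀ {f : 𝒟 → ℝ → ℝ} {m : 𝒟 → ℝ}, (∀ d, ContDiff ℝ ∞ (f d) ∧ Bd k (f d) (m d)) →
    UB (cylP F) (fun d _ => m d) k fun d x => f d x.2 := by
  have h0 : ∀ {k} {f : 𝒟 → ℝ → ℝ} {m : 𝒟 → ℝ}, (∀ d, ContDiff ℝ ∞ (f d) ∧ Bd k (f d) (m d)) →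
      UB (cylP F) (fun d _ => m d) 0 fun d x => f d x.2 := fun h =>
    .zero' 1 (fun d => sm_snd (h d).1) (fun d _ => (h d).2.nonneg)
      fun d x => by simpa using (h d).2.abs_le x.2
  induction k with
  | zero => exact h0
  | succ k ih => exact fun h => (h0 h).succ (ub_D (fun d => (h d).1)
      (ih fun d => ⟨Neck67.cd_deriv (h d).1, (h d).2.2⟩))

theorem ub_up {p a : 𝒟 → ℝ} (h : ∀ d, 1 ≤ a d) :
    UB (cylP F) 1 k fun d x => Neck67.up (p d) (a d) x.2 :=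
  UB.wt' (ub_t k fun d => ⟨(Neck67.sm_up (h d) _).cd, (Neck67.bd_up k (h d) _).of_succ⟩)
    (Neck67.cS k) (fun _ _ => zero_le_one) fun _ _ => (mul_one _).ge

theorem ub_dn {p a : 𝒟 → ℝ} (h : ∀ d, 1 ≤ a d) :
    UB (cylP F) 1 k fun d x => Neck67.dn (p d) (a d) x.2 :=
  UB.wt' (ub_t k fun d => ⟨(Neck67.sm_dn (h d) _).cd, (Neck67.bd_dn k (h d) _).of_succ⟩)
    (Neck67.cS k) (fun _ _ => zero_le_one) fun _ _ => (mul_one _).ge

end Crest.Agent.X212.Tr6
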